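import Vale.Agent.P038.H613.Match

/-!
# P038 (H613): the exchange inequality

`N v` is the closed out-neighbourhood of `v` in an oriented graph. A pair `(B, C)` of families
of sets is compatible if `N a ⊆ B a`, `N a ⊆ C a` and never `b ∈ B a`, `a ∈ C b` for `a ≠ b`.
For a compatible pair minimising the sum of the outer boundaries, the pair of left interiors
`X a = ⋂_{a ∈ N s} B s`, `Y a = ⋂_{a ∈ N s} C s` has no larger sum of outer boundaries
(`exchange`).
-/

namespace Vale.Agent.P038.H613

open Finset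

variable {V : Type*} [Fintype V] [DecidableEq V]

/-- Compatible pairs. -/
def Good (N B C : V → Finset V) : Prop :=
  (∀ a, N a ⊆ B a) ∧ (∀ a, N a ⊆ C a) ∧ ∀ a b, b ∈ B a → a ∈ C b → a = b

/-- Sum of the outer boundaries of the rows. -/
def kap (N R : V → Finset V) : ℤ := ∑ a, ((((R a).biUnion N).card : ℤ) - ((R a).card : ℤ))

/-- Left interior. -/
def Int (N B : V → Finset V) (a : V) : Finset V := Finset.univ.filter fun x => ∀ s, a ∈ N s → x ∈ B s

/-- The free entries of row `a`. -/
def Mr (B C : V → Finset V) (a : V) : Finset V := Finset.univ.filter fun x => x ∉ B a ∧ a ∉ C x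

/-- The row `a` of `L`. -/
def Lr (N B C : V → Finset V) (a : V) : Finset V :=
  Finset.univ.filter fun y => a ∉ (C y).biUnion N ∧ y ∉ Int N B a

theorem mem_Int {N B : V → Finset V} {a x : V} : x ∈ Int N B a ↔ ∀ s, a ∈ N s → x ∈ B s := by
  simp [Int]

theorem mem_Mr {B C : V → Finset V} {a x : V} : x ∈ Mr B C a ↔ x ∉ B a ∧ a ∉ C x := by
  simp [Mr]

theorem mem_Lr {N B C : V → Finset V} {a y : V} :
    y ∈ Lr N B C a ↔ a ∉ (C y).biUnion N ∧ y ∉ Int N B a := by
  simp [Lr]

/-- Minimal compatible pair. -/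
def MinGood (N B C : V → Finset V) : Prop :=
  Good N B C ∧ ∀ B' C', Good N B' C' → kap N B + kap N C ≤ kap N B' + kap N C'

theorem Good.symm {N B C : V → Finset V} (h : Good N B C) : Good N C B :=
  ⟨h.2.1, h.1, fun a b h1 h2 => (h.2.2 b a h2 h1).symm⟩

theorem MinGood.symm {N B C : V → Finset V} (h : MinGood N B C) : MinGood N C B :=
  ⟨h.1.symm, fun B' C' h' => by
    have := h.2 C' B' h'.symm
    linarith⟩

theorem exists_minGood {N : V → Finset V} (hor : ∀ a b, b ∈ N a → a ∈ N b → a = b) :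
    ∃ B C, MinGood N B C := by
  classical
  obtain ⟨p, hp, hmin⟩ := Finset.exists_min_image
    ((Finset.univ : Finset ((V → Finset V) × (V → Finset V))).filter fun p => Good N p.1 p.2)
    (fun p => kap N p.1 + kap N p.2)
    ⟨(N, N), Finset.mem_filter.2 ⟨Finset.mem_univ _, fun _ => Finset.Subset.refl _,
      fun _ => Finset.Subset.refl _, hor⟩⟩
  exact ⟨p.1, p.2, (Finset.mem_filter.1 hp).2, fun B' C' h' =>
    hmin (B', C') (Finset.mem_filter.2 ⟨Finset.mem_univ _, h'⟩)⟩

theorem growth {N B C : V → Finset V} (h : MinGood N B C) (a : V) (O : Finset V)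
    (hO : O ⊆ Mr B C a) : O.card ≤ (O.biUnion N \ (B a).biUnion N).card := by
  classical
  set B' : V → Finset V := Function.update B a (B a ∪ O) with hB'
  have hBa : B' a = B a ∪ O := by rw [hB', Function.update_self]
  have hBo : ∀ b, b ≠ a → B' b = B b := fun b hb => by rw [hB', Function.update_of_ne hb]
  have hgood : Good N B' C := by
    refine ⟨fun b => ?_, h.1.2.1, fun b x h1 h2 => ?_⟩
    · by_cases hb : b = a
      · rw [hb, hBa]
        exact (h.1.1 a).trans Finset.subset_union_left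
      · rw [hBo b hb]
        exact h.1.1 b
    · by_cases hb : b = a
      · rw [hb, hBa] at h1
        rcases Finset.mem_union.1 h1 with h3 | h3
        · rw [hb]
          exact h.1.2.2 a x h3 (hb ▸ h2)
        · exact absurd (hb ▸ h2) (mem_Mr.1 (hO h3)).2
      · rw [hBo b hb] at h1
        exact h.1.2.2 b x h1 h2
  have h1 := h.2 B' C hgood
  have h2 : kap N B' - kap N B =
      ((((B a ∪ O).biUnion N).card : ℤ) - ((B a ∪ O).card : ℤ)) -
        ((((B a).biUnion N).card : ℤ) - ((B a).card : ℤ)) := by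
    unfold kap
    rw [← Finset.sum_sub_distrib]
    rw [Finset.sum_eq_single a]
    · rw [hBa]
    · intro b _ hb
      rw [hBo b hb]
      ring
    · intro h3
      exact absurd (Finset.mem_univ a) h3
  have hd : Disjoint (B a) O := by
    rw [Finset.disjoint_left]
    intro x hx hx'
    exact (mem_Mr.1 (hO hx')).1 hx
  rw [Finset.card_union_of_disjoint hd, Finset.union_biUnion] at h2
  have h3 : ((B a).biUnion N ∪ O.biUnion N).card =
      ((B a).biUnion N).card + (O.biUnion N \ (B a).biUnion N).card := by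
    rw [← Finset.card_union_of_disjoint Finset.disjoint_sdiff, Finset.union_sdiff_self_eq_union]
  rw [h3] at h2
  push_cast at h2
  have h4 : (O.card : ℤ) ≤ ((O.biUnion N \ (B a).biUnion N).card : ℤ) := by linarith
  exact_mod_cast h4

theorem hall {N B C : V → Finset V} (h : MinGood N B C) (a : V) :
    ∃ f, Adm N (Mr B C a) ((B a).biUnion N) f := by
  classical
  have h1 := (Finset.all_card_le_biUnion_card_iff_exists_injective
    (fun y : {x // x ∈ Mr B C a} => N y.1 \ (B a).biUnion N)).1 (by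
      intro s
      have h2 := growth h a (s.image Subtype.val) (by
        intro x hx
        obtain ⟨y, _, hy⟩ := Finset.mem_image.1 hx
        rw [← hy]
        exact y.2)
      rw [Finset.card_image_of_injective _ Subtype.val_injective] at h2
      refine h2.trans (Finset.card_le_card ?_)
      intro z hz
      obtain ⟨h3, h4⟩ := Finset.mem_sdiff.1 hz
      obtain ⟨y, hy, hyz⟩ := Finset.mem_biUnion.1 h3
      obtain ⟨y', hy', hyy⟩ := Finset.mem_image.1 hy
      refine Finset.mem_biUnion.2 ⟨y', hy', Finset.mem_sdiff.2 ⟨?_, h4⟩⟩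
      rw [hyy]
      exact hyz)
  obtain ⟨f, hf, hfm⟩ := h1
  refine ⟨fun y => if hy : y ∈ Mr B C a then f ⟨y, hy⟩ else y, ?_, ?_⟩
  · intro y hy z hz hyz
    have hy' : y ∈ Mr B C a := hy
    have hz' : z ∈ Mr B C a := hz
    simp only [dif_pos hy', dif_pos hz'] at hyz
    have := hf hyz
    exact congrArg Subtype.val this
  · intro y hy
    have := hfm ⟨y, hy⟩
    simp only [dif_pos hy]
    exact Finset.mem_sdiff.1 this

/-- The second market: matchings of `L a` avoiding the neighbourhood of the interior. -/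
theorem second {N B C : V → Finset V} {f : V → V → V}
    (hf : ∀ a, Adm N (Mr B C a) ((B a).biUnion N) (f a)) (a' : V) :
    ∃ f', Adm N (Lr N B C a') ((Int N B a').biUnion N) f' := by
  classical
  have hex : ∀ y, y ∈ Lr N B C a' → ∃ s, (a' ∈ N s ∧ y ∉ B s) ∧
      ∀ s', (a' ∈ N s' ∧ y ∉ B s') → num s ≤ num s' := by
    intro y hy
    have h1 := (mem_Lr.1 hy).2
    rw [mem_Int] at h1
    push Not at h1
    obtain ⟨s0, hs0⟩ := h1
    obtain ⟨s, hs, hmin⟩ := Finset.exists_min_image
      (Finset.univ.filter fun s => a' ∈ N s ∧ y ∉ B s) num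
      ⟨s0, Finset.mem_filter.2 ⟨Finset.mem_univ _, hs0⟩⟩
    exact ⟨s, (Finset.mem_filter.1 hs).2, fun s' hs' =>
      hmin s' (Finset.mem_filter.2 ⟨Finset.mem_univ _, hs'⟩)⟩
  choose! σ hσ using hex
  have hM : ∀ y, y ∈ Lr N B C a' → y ∈ Mr B C (σ y) := by
    intro y hy
    refine mem_Mr.2 ⟨(hσ y hy).1.2, fun h1 => (mem_Lr.1 hy).1 ?_⟩
    exact Finset.mem_biUnion.2 ⟨σ y, h1, (hσ y hy).1.1⟩
  have hlt : ∀ y z, y ∈ Lr N B C a' → z ∈ Lr N B C a' → f (σ y) y = f (σ z) z →
      ¬ num (σ y) < num (σ z) := by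
    intro y z hy hz hyz hlt
    have h1 : z ∈ B (σ y) := by
      by_contra h2
      have := (hσ z hz).2 (σ y) ⟨(hσ y hy).1.1, h2⟩
      omega
    have h3 := ((hf (σ y)).2 y (hM y hy)).2
    have h4 := ((hf (σ z)).2 z (hM z hz)).1
    apply h3
    rw [hyz]
    exact Finset.mem_biUnion.2 ⟨z, h1, h4⟩
  refine ⟨fun y => f (σ y) y, ?_, ?_⟩
  · intro y hy z hz hyz
    have hyz' : f (σ y) y = f (σ z) z := hyz
    have h1 := hlt y z hy hz hyz'
    have h2 := hlt z y hz hy hyz'.symm
    have h3 : σ y = σ z := num_inj (by omega)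
    rw [← h3] at hyz'
    refine (hf (σ y)).1 (hM y hy) ?_ hyz'
    rw [h3]
    exact hM z hz
  · intro y hy
    have h1 := (hf (σ y)).2 y (hM y hy)
    refine ⟨h1.1, fun h2 => h1.2 ?_⟩
    obtain ⟨x, hx, hxy⟩ := Finset.mem_biUnion.1 h2
    exact Finset.mem_biUnion.2 ⟨x, mem_Int.1 hx (σ y) (hσ y hy).1.1, hxy⟩

/-- Values of matchings of the second market lie in `Z`. -/
theorem target {N B C : V → Finset V} {a' y x' : V} (hy : y ∈ Lr N B C a') (hx : x' ∈ N y) :
    a' ∉ (Int N C x').biUnion N := by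
  intro h
  obtain ⟨s, hs, hsa⟩ := Finset.mem_biUnion.1 h
  exact (mem_Lr.1 hy).1 (Finset.mem_biUnion.2 ⟨s, mem_Int.1 hs y hx, hsa⟩)

/-- Pairs outside both relations. -/
def Out (P Q : V → Finset V) : Finset (V × V) :=
  Finset.univ.filter fun p => p.2 ∉ P p.1 ∧ p.1 ∉ Q p.2

theorem mem_Out {P Q : V → Finset V} {a x : V} : (a, x) ∈ Out P Q ↔ x ∉ P a ∧ a ∉ Q x := by
  simp [Out]

theorem card_rows (P : V → Finset V) :
    (Finset.univ.filter fun p : V × V => p.2 ∈ P p.1).card = ∑ a, (P a).card := by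
  classical
  rw [Finset.card_filter, Fintype.sum_prod_type]
  refine Finset.sum_congr rfl fun a _ => ?_
  rw [← Finset.card_filter]
  congr 1
  ext x
  simp

theorem card_cols (Q : V → Finset V) :
    (Finset.univ.filter fun p : V × V => p.1 ∈ Q p.2).card = ∑ x, (Q x).card := by
  classical
  rw [Finset.card_filter, Fintype.sum_prod_type_right]
  refine Finset.sum_congr rfl fun a _ => ?_
  rw [← Finset.card_filter]
  congr 1
  ext x
  simp

/-- Counting: two relations meeting exactly in the diagonal. -/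
theorem card_Out {P Q : V → Finset V} (hP : ∀ a, a ∈ P a) (hQ : ∀ a, a ∈ Q a)
    (hPQ : ∀ a x, x ∈ P a → a ∈ Q x → a = x) :
    (Out P Q).card + (∑ a, (P a).card + ∑ x, (Q x).card) =
      Fintype.card V * Fintype.card V + Fintype.card V := by
  classical
  set S1 : Finset (V × V) := Finset.univ.filter fun p => p.2 ∈ P p.1 with hS1
  set S2 : Finset (V × V) := Finset.univ.filter fun p => p.1 ∈ Q p.2 with hS2
  have h1 : S1.card = ∑ a, (P a).card := card_rows P
  have h2 : S2.card = ∑ x, (Q x).card := card_cols Q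
  have h3 : (S1 ∩ S2).card = Fintype.card V := by
    have : S1 ∩ S2 = Finset.univ.image fun a : V => (a, a) := by
      ext ⟨a, x⟩
      simp only [hS1, hS2, Finset.mem_inter, Finset.mem_filter, Finset.mem_univ, true_and,
        Finset.mem_image, Prod.mk.injEq]
      constructor
      · rintro ⟨h4, h5⟩
        exact ⟨a, rfl, hPQ a x h4 h5⟩
      · rintro ⟨b, rfl, rfl⟩
        exact ⟨hP b, hQ b⟩
    rw [this, Finset.card_image_of_injective _ (fun a b h => (Prod.mk.inj h).1), Finset.card_univ]
  have h4 : Out P Q = (S1 ∪ S2)ᶜ := by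
    ext ⟨a, x⟩
    simp only [hS1, hS2, mem_Out, Finset.mem_compl, Finset.mem_union, Finset.mem_filter,
      Finset.mem_univ, true_and]
    tauto
  have h5 := Finset.card_union_add_card_inter S1 S2
  have h6 : (Out P Q).card + (S1 ∪ S2).card = Fintype.card V * Fintype.card V := by
    rw [h4, Finset.card_compl_add_card, Fintype.card_prod]
  omega

end Vale.Agent.P038.H613
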