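import Mathlib

/-!
# P038 (H613): sets in an arc-minimal counterexample

In a counterexample with the fewest arcs `|N1(X)| > |N2(X)|` for every vertex set `X`
with `N1(X)` nonempty (proof idea: helper294, note 20944).
-/

namespace Vale.Agent.P038.H613

open Finset

variable {V : Type*} [Fintype V] [DecidableEq V]

/-- Closed out-neighbourhood. -/
def Nb (E : Finset (V × V)) (v : V) : Finset V := Finset.univ.filter fun u => u = v ∨ (v, u) ∈ E

/-- Out-neighbourhood. -/
def N1 (E : Finset (V × V)) (v : V) : Finset V := Finset.univ.filter fun u => (v, u) ∈ E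

/-- Second out-neighbourhood. -/
def N2 (E : Finset (V × V)) (v : V) : Finset V :=
  Finset.univ.filter fun x => x ≠ v ∧ (v, x) ∉ E ∧ ∃ u, (v, u) ∈ E ∧ (u, x) ∈ E

/-- Counterexample to the second neighbourhood conjecture. -/
def CE (E : Finset (V × V)) : Prop :=
  (∀ a b, (a, b) ∈ E → (b, a) ∉ E) ∧ ∀ v, (N2 E v).card < (N1 E v).card

theorem mem_Nb {E : Finset (V × V)} {v u : V} : u ∈ Nb E v ↔ u = v ∨ (v, u) ∈ E := by
  simp [Nb]

theorem mem_N1 {E : Finset (V × V)} {v u : V} : u ∈ N1 E v ↔ (v, u) ∈ E := by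
  simp [N1]

theorem mem_N2 {E : Finset (V × V)} {v x : V} :
    x ∈ N2 E v ↔ x ≠ v ∧ (v, x) ∉ E ∧ ∃ u, (v, u) ∈ E ∧ (u, x) ∈ E := by
  simp [N2]

/-- Closed neighbourhood of a set. -/
def NS (E : Finset (V × V)) (X : Finset V) : Finset V := X.biUnion (Nb E)

theorem mem_NS {E : Finset (V × V)} {X : Finset V} {u : V} :
    u ∈ NS E X ↔ ∃ v ∈ X, u ∈ Nb E v := by
  simp [NS]

theorem self_Nb (E : Finset (V × V)) (v : V) : v ∈ Nb E v := mem_Nb.2 (Or.inl rfl)

theorem subset_NS (E : Finset (V × V)) (X : Finset V) : X ⊆ NS E X :=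
  fun x hx => mem_NS.2 ⟨x, hx, self_Nb E x⟩

theorem plan {E : Finset (V × V)} (hCE : CE E)
    (hmin : ∀ E' : Finset (V × V), CE E' → E.card ≤ E'.card) (X : Finset V)
    (hX : (NS E X \ X).Nonempty) :
    (NS E (NS E X) \ NS E X).card < (NS E X \ X).card := by
  by_contra hcon
  push Not at hcon
  set L : Finset V := NS E X \ X with hL
  set d : Finset V → ℤ := fun T => ((NS E T \ X).card : ℤ) - 2 * (T.card : ℤ) with hd
  have hdL : 0 ≤ d L := by
    have h1 : (NS E (NS E X) \ NS E X) ∪ L ⊆ NS E L \ X := by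
      intro z hz
      rcases Finset.mem_union.1 hz with h | h
      · obtain ⟨h2, h3⟩ := Finset.mem_sdiff.1 h
        obtain ⟨c, hc, hcz⟩ := mem_NS.1 h2
        have hcX : c ∉ X := fun h4 => h3 (mem_NS.2 ⟨c, h4, hcz⟩)
        refine Finset.mem_sdiff.2 ⟨mem_NS.2 ⟨c, Finset.mem_sdiff.2 ⟨hc, hcX⟩, hcz⟩, ?_⟩
        exact fun h4 => h3 (subset_NS E X h4)
      · exact Finset.mem_sdiff.2 ⟨subset_NS E L h, (Finset.mem_sdiff.1 h).2⟩
    have h2 : Disjoint (NS E (NS E X) \ NS E X) L := by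
      rw [Finset.disjoint_left]
      intro z hz hz'
      exact (Finset.mem_sdiff.1 hz).2 (Finset.mem_sdiff.1 hz').1
    have h3 := Finset.card_le_card h1
    rw [Finset.card_union_of_disjoint h2] at h3
    simp only [hd]
    have h4 : L.card + L.card ≤ (NS E L \ X).card := by omega
    have h5 : ((L.card : ℤ) + L.card) ≤ ((NS E L \ X).card : ℤ) := by exact_mod_cast h4
    linarith
  have hd0 : d ∅ = 0 := by
    simp [hd, NS]
  obtain ⟨T, hT, hTmin⟩ := Finset.exists_min_image L.ssubsets d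
    ⟨∅, Finset.empty_mem_ssubsets hX⟩
  rw [Finset.mem_ssubsets] at hT
  have hdT : d T ≤ 0 := by
    rw [← hd0]
    exact hTmin ∅ (Finset.empty_mem_ssubsets hX)
  have hall : ∀ S, T ⊆ S → S ⊆ L → d T ≤ d S := by
    intro S _ hSL
    by_cases h : S = L
    · rw [h]
      linarith
    · exact hTmin S (Finset.mem_ssubsets.2 (Finset.ssubset_iff_subset_ne.2 ⟨hSL, h⟩))
  set Z : Finset V := L \ T with hZ
  set E' : Finset (V × V) := E.filter (fun p => ¬ (p.1 ∈ X ∧ p.2 ∈ Z)) with hE'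
  have mE' : ∀ a b, (a, b) ∈ E' ↔ (a, b) ∈ E ∧ ¬ (a ∈ X ∧ b ∈ Z) := by
    intro a b
    rw [hE', Finset.mem_filter]
  have hlt : E'.card < E.card := by
    obtain ⟨z, hzL, hzT⟩ := Finset.exists_of_ssubset hT
    obtain ⟨h1, h2⟩ := Finset.mem_sdiff.1 hzL
    obtain ⟨y, hy, hyz⟩ := mem_NS.1 h1
    have hyz' : (y, z) ∈ E := by
      rcases mem_Nb.1 hyz with h | h
      · exact absurd (h ▸ hy) h2
      · exact h
    refine Finset.card_lt_card (Finset.ssubset_iff_subset_ne.2 ⟨Finset.filter_subset _ _, ?_⟩)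
    intro he
    have h3 : (y, z) ∈ E' := by
      rw [he]
      exact hyz'
    exact ((mE' y z).1 h3).2 ⟨hy, Finset.mem_sdiff.2 ⟨hzL, hzT⟩⟩
  refine absurd (hmin E' ⟨?_, ?_⟩) (by omega)
  · intro a b h1 h2
    exact hCE.1 a b ((mE' a b).1 h1).1 ((mE' b a).1 h2).1
  · intro v
    have hFv := hCE.2 v
    by_cases hv : v ∈ X
    · set Dy : Finset V := N1 E v ∩ Z with hDy
      set Ey : Finset V := NS E Dy \ (NS E T ∪ X) with hEy
      have hN1 : N1 E' v = N1 E v \ Dy := by
        ext z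
        rw [mem_N1, Finset.mem_sdiff, hDy, Finset.mem_inter, mem_N1, mE']
        constructor
        · rintro ⟨h1, h2⟩
          exact ⟨h1, fun h3 => h2 ⟨hv, h3.2⟩⟩
        · rintro ⟨h1, h2⟩
          exact ⟨h1, fun h3 => h2 ⟨h1, h3.2⟩⟩
      have hEsub : Ey ⊆ N2 E v ∪ Dy := by
        intro z hz
        obtain ⟨hz1, hz2⟩ := Finset.mem_sdiff.1 hz
        have hzX : z ∉ X := fun h3 => hz2 (Finset.mem_union_right _ h3)
        have hzT : z ∉ NS E T := fun h3 => hz2 (Finset.mem_union_left _ h3)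
        obtain ⟨c, hc, hcz⟩ := mem_NS.1 hz1
        have hvc : (v, c) ∈ E := mem_N1.1 (Finset.mem_inter.1 hc).1
        rcases mem_Nb.1 hcz with hzc | hzc
        · rw [hzc]
          exact Finset.mem_union_right _ hc
        · by_cases hyz : (v, z) ∈ E
          · refine Finset.mem_union_right _ (Finset.mem_inter.2 ⟨mem_N1.2 hyz, ?_⟩)
            refine Finset.mem_sdiff.2 ⟨?_, fun h3 => hzT (subset_NS E T h3)⟩
            exact Finset.mem_sdiff.2 ⟨mem_NS.2 ⟨v, hv, mem_Nb.2 (Or.inr hyz)⟩, hzX⟩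
          · refine Finset.mem_union_left _ (mem_N2.2 ⟨?_, hyz, c, hvc, hzc⟩)
            rintro rfl
            exact hzX hv
      have hN2 : N2 E' v ⊆ (N2 E v ∪ Dy) \ Ey := by
        intro z hz
        rw [mem_N2] at hz
        obtain ⟨hzy, hnz, c, hyc, hcz⟩ := hz
        rw [mE'] at hyc hcz
        refine Finset.mem_sdiff.2 ⟨?_, ?_⟩
        · by_cases hyz : (v, z) ∈ E
          · refine Finset.mem_union_right _ (Finset.mem_inter.2 ⟨mem_N1.2 hyz, ?_⟩)
            by_contra hzZ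
            exact hnz ((mE' v z).2 ⟨hyz, fun h3 => hzZ h3.2⟩)
          · exact Finset.mem_union_left _ (mem_N2.2 ⟨hzy, hyz, c, hyc.1, hcz.1⟩)
        · intro hzE
          obtain ⟨_, hz2⟩ := Finset.mem_sdiff.1 hzE
          have hzX : z ∉ X := fun h3 => hz2 (Finset.mem_union_right _ h3)
          have hzT : z ∉ NS E T := fun h3 => hz2 (Finset.mem_union_left _ h3)
          by_cases hcX : c ∈ X
          · have hzL : z ∈ L :=
              Finset.mem_sdiff.2 ⟨mem_NS.2 ⟨c, hcX, mem_Nb.2 (Or.inr hcz.1)⟩, hzX⟩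
            have hzZ : z ∈ Z := Finset.mem_sdiff.2 ⟨hzL, fun h3 => hzT (subset_NS E T h3)⟩
            exact hcz.2 ⟨hcX, hzZ⟩
          · have hcL : c ∈ L :=
              Finset.mem_sdiff.2 ⟨mem_NS.2 ⟨v, hv, mem_Nb.2 (Or.inr hyc.1)⟩, hcX⟩
            have hcT : c ∈ T := by
              by_contra hcT
              exact hyc.2 ⟨hv, Finset.mem_sdiff.2 ⟨hcL, hcT⟩⟩
            exact hzT (mem_NS.2 ⟨c, hcT, mem_Nb.2 (Or.inr hcz.1)⟩)
      have hdisj : Disjoint (N2 E v) Dy := by
        rw [Finset.disjoint_left]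
        intro z hz hz'
        exact (mem_N2.1 hz).2.1 (mem_N1.1 (Finset.mem_inter.1 hz').1)
      have h1 := Finset.card_le_card hN2
      rw [Finset.card_sdiff_of_subset hEsub, Finset.card_union_of_disjoint hdisj] at h1
      have h1' := Finset.card_le_card hEsub
      rw [Finset.card_union_of_disjoint hdisj] at h1'
      have h2 : (N1 E' v).card = (N1 E v).card - Dy.card := by
        rw [hN1, Finset.card_sdiff_of_subset Finset.inter_subset_left]
      have h2' : Dy.card ≤ (N1 E v).card := Finset.card_le_card Finset.inter_subset_left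
      have hDT : Disjoint T Dy := by
        rw [Finset.disjoint_left]
        intro z hz hz'
        exact (Finset.mem_sdiff.1 (Finset.mem_inter.1 hz').2).2 hz
      have e1 : NS E (T ∪ Dy) \ X = (NS E T \ X) ∪ Ey := by
        ext z
        simp only [hEy, Finset.mem_sdiff, Finset.mem_union, mem_NS]
        constructor
        · rintro ⟨⟨v', h3 | h3, h4⟩, h5⟩
          · exact Or.inl ⟨⟨v', h3, h4⟩, h5⟩
          · by_cases h6 : ∃ v ∈ T, z ∈ Nb E v
            · exact Or.inl ⟨h6, h5⟩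
            · exact Or.inr ⟨⟨v', h3, h4⟩, fun h7 => h7.elim h6 h5⟩
        · rintro (⟨⟨v', h3, h4⟩, h5⟩ | ⟨⟨v', h3, h4⟩, h5⟩)
          · exact ⟨⟨v', Or.inl h3, h4⟩, h5⟩
          · exact ⟨⟨v', Or.inr h3, h4⟩, fun h6 => h5 (Or.inr h6)⟩
      have e2 : Disjoint (NS E T \ X) Ey := by
        rw [Finset.disjoint_left]
        intro z hz hz'
        exact (Finset.mem_sdiff.1 hz').2 (Finset.mem_union_left _ (Finset.mem_sdiff.1 hz).1)
      have h3 := hall (T ∪ Dy) Finset.subset_union_left (Finset.union_subset hT.1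
        (Finset.inter_subset_right.trans Finset.sdiff_subset))
      simp only [hd] at h3
      rw [e1, Finset.card_union_of_disjoint e2, Finset.card_union_of_disjoint hDT] at h3
      push_cast at h3
      have h4 : 2 * Dy.card ≤ Ey.card := by
        have : (2 * (Dy.card : ℤ)) ≤ (Ey.card : ℤ) := by linarith
        exact_mod_cast this
      rw [h2]
      omega
    · have h1 : N1 E' v = N1 E v := by
        ext z
        rw [mem_N1, mem_N1, mE']
        exact ⟨fun h3 => h3.1, fun h3 => ⟨h3, fun h4 => hv h4.1⟩⟩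
      have h2 : N2 E' v ⊆ N2 E v := by
        intro z hz
        rw [mem_N2] at hz ⊢
        obtain ⟨hzv, hnz, c, hvc, hcz⟩ := hz
        rw [mE'] at hvc hcz
        exact ⟨hzv, fun h3 => hnz ((mE' v z).2 ⟨h3, fun h4 => hv h4.1⟩), c, hvc.1, hcz.1⟩
      have h3 := Finset.card_le_card h2
      rw [h1]
      omega

end Vale.Agent.P038.H613
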