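import Vale.Agent.P038.H613.Core
import Vale.Agent.P038.H613.Plan

/-!
# P038 (H613): the second neighbourhood theorem

`exchange_card`, `exchange` (the exchange inequality for a minimal compatible pair) and
`no_CE`: there is no counterexample to the second neighbourhood conjecture.
-/

namespace Vale.Agent.P038.H613

open Finset

variable {V : Type*} [Fintype V] [DecidableEq V]

/-- The neighbourhood family of a family of sets. -/
def Fam (N R : V → Finset V) (a : V) : Finset V := (R a).biUnion N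

/-- The heart of the proof: `|R| + |L| ≤ |M| + |Z|`. -/
theorem exchange_card {N B C : V → Finset V} (h : MinGood N B C) :
    (Out (Fam N B) (Int N C)).card + (Out (Int N B) (Fam N C)).card ≤
      (Out B C).card + (Out (Fam N (Int N B)) (Fam N (Int N C))).card := by
  classical
  have h1 : ∀ a, ∃ f, Adm N (Mr B C a) ((B a).biUnion N) f ∧
      ∀ g, Adm N (Mr B C a) ((B a).biUnion N) g → cost (Mr B C a) f ≤ cost (Mr B C a) g :=
    fun a => exists_opt (hall h a)
  choose f hf hfo using h1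
  have h2 : ∀ a, ∃ f', Adm N (Lr N B C a) ((Int N B a).biUnion N) f' ∧
      ∀ g, Adm N (Lr N B C a) ((Int N B a).biUnion N) g →
        cost (Lr N B C a) f' ≤ cost (Lr N B C a) g :=
    fun a => exists_opt (second hf a)
  choose f' hf' hfo' using h2
  have h3 : ∀ x, ∃ g, Adm N (Mr C B x) ((C x).biUnion N) g := fun x => hall h.symm x
  choose g hg using h3
  have h4 : ∀ x, ∃ g', Adm N (Lr N C B x) ((Int N C x).biUnion N) g' := fun x => second hg x
  choose g' hg' using h4
  set R := Out (Fam N B) (Int N C) with hR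
  set L := Out (Int N B) (Fam N C) with hL
  set M := Out B C with hM
  set Z := Out (Fam N (Int N B)) (Fam N (Int N C)) with hZ
  set R' : Finset (V × V) := R.filter fun p => ¬ ∃ y ∈ Mr B C p.1, f p.1 y = p.2 with hR'
  have c1 : R.card ≤ R'.card + M.card := by
    have hsub : R ⊆ R' ∪ M.image fun p => (p.1, f p.1 p.2) := by
      rintro ⟨a, x⟩ hp
      by_cases hy : ∃ y ∈ Mr B C a, f a y = x
      · obtain ⟨y, hy, hyx⟩ := hy
        refine Finset.mem_union_right _ (Finset.mem_image.2 ⟨(a, y), ?_, ?_⟩)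
        · exact mem_Out.2 (mem_Mr.1 hy)
        · show (a, f a y) = (a, x)
          rw [hyx]
      · exact Finset.mem_union_left _ (Finset.mem_filter.2 ⟨hp, hy⟩)
    calc R.card ≤ (R' ∪ M.image fun p => (p.1, f p.1 p.2)).card := Finset.card_le_card hsub
      _ ≤ R'.card + (M.image fun p => (p.1, f p.1 p.2)).card := Finset.card_union_le _ _
      _ ≤ R'.card + M.card := Nat.add_le_add_left Finset.card_image_le _
  -- membership facts
  have mR : ∀ a x, (a, x) ∈ R → a ∈ Lr N C B x := by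
    intro a x hp
    have := mem_Out.1 hp
    exact mem_Lr.2 this
  have mL : ∀ a y, (a, y) ∈ L → y ∈ Lr N B C a := by
    intro a y hp
    have := mem_Out.1 hp
    exact mem_Lr.2 ⟨this.2, this.1⟩
  set φ : V × V → V × V := fun p => (g' p.2 p.1, p.2) with hφ
  set ψ : V × V → V × V := fun p => (p.1, f' p.1 p.2) with hψ
  have i1 : Set.InjOn φ R' := by
    rintro ⟨a, x⟩ hp ⟨b, z⟩ hq hpq
    have hp' := mR a x (Finset.mem_filter.1 hp).1
    have hq' := mR b z (Finset.mem_filter.1 hq).1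
    have e2 : x = z := (Prod.mk.inj hpq).2
    have e1 : g' x a = g' z b := (Prod.mk.inj hpq).1
    subst e2
    have := (hg' x).1 hp' hq' e1
    rw [this]
  have i2 : Set.InjOn ψ L := by
    rintro ⟨a, x⟩ hp ⟨b, z⟩ hq hpq
    have hp' := mL a x hp
    have hq' := mL b z hq
    have e1 : a = b := (Prod.mk.inj hpq).1
    have e2 : f' a x = f' b z := (Prod.mk.inj hpq).2
    subst e1
    have := (hf' a).1 hp' hq' e2
    rw [this]
  have z1 : ∀ p ∈ R', φ p ∈ Z := by
    rintro ⟨a, x⟩ hp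
    have hp' := mR a x (Finset.mem_filter.1 hp).1
    have h5 := (hg' x).2 a hp'
    exact mem_Out.2 ⟨target hp' h5.1, h5.2⟩
  have z2 : ∀ p ∈ L, ψ p ∈ Z := by
    rintro ⟨a, y⟩ hp
    have hp' := mL a y hp
    have h5 := (hf' a).2 y hp'
    exact mem_Out.2 ⟨h5.2, target hp' h5.1⟩
  have hdisj : Disjoint (R'.image φ) (L.image ψ) := by
    rw [Finset.disjoint_left]
    intro q hq1 hq2
    obtain ⟨⟨a, x⟩, hp, hpq⟩ := Finset.mem_image.1 hq1
    obtain ⟨⟨a', y⟩, hp2, hpq2⟩ := Finset.mem_image.1 hq2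
    have hpR := (Finset.mem_filter.1 hp).1
    have hnot := (Finset.mem_filter.1 hp).2
    have ha := mR a x hpR
    have hy := mL a' y hp2
    have e : φ (a, x) = ψ (a', y) := hpq.trans hpq2.symm
    have e1 : g' x a = a' := (Prod.mk.inj e).1
    have e2 : x = f' a' y := (Prod.mk.inj e).2
    have haN : a' ∈ N a := by
      rw [← e1]
      exact ((hg' x).2 a ha).1
    have hxB : x ∉ (B a).biUnion N := (mem_Out.1 hpR).1
    have hmono := mono_image (hf a) (hfo a) (hf' a') (hfo' a')
      (by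
        intro z hz
        obtain ⟨v, hv, hvz⟩ := Finset.mem_biUnion.1 hz
        exact Finset.mem_biUnion.2 ⟨v, mem_Int.1 hv a haN, hvz⟩)
      (by
        intro y2 hy2 x2 hx2 hx2K
        refine mem_Mr.2 ⟨fun h6 => hx2K (Finset.mem_biUnion.2 ⟨y2, h6, hx2⟩), fun h6 => ?_⟩
        exact (mem_Lr.1 hy2).1 (Finset.mem_biUnion.2 ⟨a, h6, haN⟩))
      hy (by
        rw [← e2]
        exact hxB)
    obtain ⟨z, hz, hzz⟩ := hmono
    exact hnot ⟨z, hz, hzz.trans e2.symm⟩
  have c2 : R'.card + L.card ≤ Z.card := by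
    rw [← Finset.card_image_of_injOn i1, ← Finset.card_image_of_injOn i2,
      ← Finset.card_union_of_disjoint hdisj]
    refine Finset.card_le_card (Finset.union_subset ?_ ?_)
    · intro q hq
      obtain ⟨p, hp, rfl⟩ := Finset.mem_image.1 hq
      exact z1 p hp
    · intro q hq
      obtain ⟨p, hp, rfl⟩ := Finset.mem_image.1 hq
      exact z2 p hp
  omega

/-- The left interiors form an admissible pair one level below. -/
theorem int_meet {N B C : V → Finset V} (hN : ∀ v, v ∈ N v) (h : Good N B C) (a b : V)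
    (h1 : b ∈ Fam N (Int N B) a) (h2 : a ∈ Fam N (Int N C) b) : a = b := by
  obtain ⟨x, hx, hbx⟩ := Finset.mem_biUnion.1 h1
  obtain ⟨y, hy, hay⟩ := Finset.mem_biUnion.1 h2
  have e1 : x ∈ B y := mem_Int.1 hx y hay
  have e2 : y ∈ C x := mem_Int.1 hy x hbx
  have e3 : y = x := h.2.2 y x e1 e2
  subst e3
  have e4 : y ∈ B a := mem_Int.1 hx a (hN a)
  have e5 : a ∈ C y := h.2.1 y hay
  have e6 : a = y := h.2.2 a y e4 e5
  subst e6
  have e7 : a ∈ C b := mem_Int.1 hy b (hN b)
  have e8 : b ∈ B a := h.1 a hbx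
  exact h.2.2 a b e8 e7

theorem out_int_meet {N B C : V → Finset V} (hN : ∀ v, v ∈ N v) (h : Good N B C) (a x : V)
    (h1 : x ∈ Fam N B a) (h2 : a ∈ Int N C x) : a = x := by
  obtain ⟨z, hz, hxz⟩ := Finset.mem_biUnion.1 h1
  have e1 : a ∈ C z := mem_Int.1 h2 z hxz
  have e2 : a = z := h.2.2 a z hz e1
  subst e2
  exact h.2.2 a x (h.1 a hxz) (mem_Int.1 h2 x (hN x))

theorem self_Int {N B : V → Finset V} (h : ∀ a, N a ⊆ B a) (a : V) : a ∈ Int N B a :=
  mem_Int.2 fun s hs => h s hs

theorem self_Fam {N R : V → Finset V} (hN : ∀ v, v ∈ N v) (h : ∀ a, a ∈ R a) (a : V) :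
    a ∈ Fam N R a := Finset.mem_biUnion.2 ⟨a, h a, hN a⟩

/-- The exchange inequality. -/
theorem exchange {N B C : V → Finset V} (hN : ∀ v, v ∈ N v) (h : MinGood N B C) :
    kap N (Int N B) + kap N (Int N C) ≤ kap N B + kap N C := by
  have hB : ∀ a, a ∈ B a := fun a => h.1.1 a (hN a)
  have hC : ∀ a, a ∈ C a := fun a => h.1.2.1 a (hN a)
  have hX := self_Int h.1.1
  have hY := self_Int h.1.2.1
  have k := exchange_card h
  have m1 := card_Out hB hC h.1.2.2
  have m2 := card_Out (self_Fam hN hB) hY (out_int_meet hN h.1)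
  have m3 := card_Out hX (self_Fam hN hC) (fun a x h1 h2 =>
    (out_int_meet hN h.1.symm x a h2 h1).symm)
  have m4 := card_Out (self_Fam hN hX) (self_Fam hN hY) (int_meet hN h.1)
  have e : ∀ R : V → Finset V, kap N R = ((∑ a, (Fam N R a).card : ℕ) : ℤ) -
      ((∑ a, (R a).card : ℕ) : ℤ) := by
    intro R
    unfold kap Fam
    rw [Finset.sum_sub_distrib]
    push_cast
    rfl
  rw [e, e, e, e]
  omega

/-- There is no counterexample to the second neighbourhood conjecture. -/
theorem no_CE [Nonempty V] (E0 : Finset (V × V)) : ¬ CE E0 := by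
  classical
  intro h0
  obtain ⟨E, hE, hEmin⟩ := Finset.exists_min_image
    ((Finset.univ : Finset (Finset (V × V))).filter fun E => CE E) Finset.card
    ⟨E0, Finset.mem_filter.2 ⟨Finset.mem_univ _, h0⟩⟩
  have hCE : CE E := (Finset.mem_filter.1 hE).2
  have hmin : ∀ E' : Finset (V × V), CE E' → E.card ≤ E'.card := fun E' h' =>
    hEmin E' (Finset.mem_filter.2 ⟨Finset.mem_univ _, h'⟩)
  have hN : ∀ v, v ∈ Nb E v := self_Nb E
  have hor : ∀ a b, b ∈ Nb E a → a ∈ Nb E b → a = b := by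
    intro a b h1 h2
    rcases mem_Nb.1 h1 with h3 | h3
    · exact h3.symm
    · rcases mem_Nb.1 h2 with h4 | h4
      · exact h4
      · exact absurd h4 (hCE.1 a b h3)
  obtain ⟨B, C, hBC⟩ := exists_minGood hor
  set X := Int (Nb E) B with hX
  set Y := Int (Nb E) C with hY
  have hXs : ∀ a, a ∈ X a := self_Int hBC.1.1
  have hYs : ∀ a, a ∈ Y a := self_Int hBC.1.2.1
  have k1 : kap (Nb E) X + kap (Nb E) Y ≤ kap (Nb E) B + kap (Nb E) C := exchange hN hBC
  have hmeet := int_meet hN hBC.1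
  have hgood : Good (Nb E) (Fam (Nb E) X) (Fam (Nb E) Y) := by
    refine ⟨fun a => ?_, fun a => ?_, hmeet⟩
    · exact fun z hz => Finset.mem_biUnion.2 ⟨a, hXs a, hz⟩
    · exact fun z hz => Finset.mem_biUnion.2 ⟨a, hYs a, hz⟩
  have k2 := hBC.2 _ _ hgood
  -- the plan inequality row by row
  have row : ∀ S : Finset V, (((NS E (NS E S)).card : ℤ) - ((NS E S).card : ℤ)) ≤
      (((NS E S).card : ℤ) - (S.card : ℤ)) ∧
      (((NS E (NS E S)).card : ℤ) - ((NS E S).card : ℤ) = (((NS E S).card : ℤ) - (S.card : ℤ)) →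
        NS E S ⊆ S) := by
    intro S
    have s1 := Finset.card_sdiff_add_card_eq_card (subset_NS E S)
    have s2 := Finset.card_sdiff_add_card_eq_card (subset_NS E (NS E S))
    by_cases hne : (NS E S \ S).Nonempty
    · have hp := plan hCE hmin S hne
      constructor
      · omega
      · intro he
        omega
    · rw [Finset.not_nonempty_iff_eq_empty, Finset.sdiff_eq_empty_iff_subset] at hne
      have he : NS E S = S := Finset.Subset.antisymm hne (subset_NS E S)
      constructor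
      · rw [he, he]
      · intro _
        exact hne
  have hkX : ∀ R : V → Finset V, kap (Nb E) (Fam (Nb E) R) =
      ∑ a, (((NS E (NS E (R a))).card : ℤ) - ((NS E (R a)).card : ℤ)) := fun R => rfl
  have hkX' : ∀ R : V → Finset V, kap (Nb E) R =
      ∑ a, (((NS E (R a)).card : ℤ) - ((R a).card : ℤ)) := fun R => rfl
  have hle : ∀ R : V → Finset V, kap (Nb E) (Fam (Nb E) R) ≤ kap (Nb E) R := by
    intro R
    rw [hkX, hkX']
    exact Finset.sum_le_sum fun a _ => (row (R a)).1
  have heq : ∀ R : V → Finset V, kap (Nb E) (Fam (Nb E) R) = kap (Nb E) R →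
      ∀ a, NS E (R a) ⊆ R a := by
    intro R h1 a
    rw [hkX, hkX'] at h1
    exact (row (R a)).2 ((Finset.sum_eq_sum_iff_of_le fun a _ => (row (R a)).1).1 h1 a
      (Finset.mem_univ a))
  have hXle := hle X
  have hYle := hle Y
  have hXcl := heq X (by linarith)
  have hYcl := heq Y (by linarith)
  -- a minimal nonempty closed set
  obtain ⟨K, hK, hKmin⟩ := Finset.exists_min_image
    ((Finset.univ : Finset (Finset V)).filter fun K => K.Nonempty ∧ NS E K ⊆ K) Finset.card
    ⟨Finset.univ, Finset.mem_filter.2 ⟨Finset.mem_univ _, Finset.univ_nonempty,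
      Finset.subset_univ _⟩⟩
  obtain ⟨_, ⟨a, ha⟩, hKcl⟩ := Finset.mem_filter.1 hK
  have hsub : ∀ c ∈ K, ∀ S : Finset V, c ∈ S → NS E S ⊆ S → K ⊆ S := by
    intro c hc S hcS hS
    have h1 : (K ∩ S) ∈ ((Finset.univ : Finset (Finset V)).filter
        fun K => K.Nonempty ∧ NS E K ⊆ K) := by
      refine Finset.mem_filter.2 ⟨Finset.mem_univ _, ⟨c, Finset.mem_inter.2 ⟨hc, hcS⟩⟩, ?_⟩
      intro z hz
      obtain ⟨v, hv, hvz⟩ := mem_NS.1 hz
      obtain ⟨hv1, hv2⟩ := Finset.mem_inter.1 hv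
      exact Finset.mem_inter.2 ⟨hKcl (mem_NS.2 ⟨v, hv1, hvz⟩), hS (mem_NS.2 ⟨v, hv2, hvz⟩)⟩
    have h2 := hKmin _ h1
    have h3 := Finset.eq_of_subset_of_card_le (Finset.inter_subset_left (s₁ := K) (s₂ := S)) h2
    exact Finset.inter_eq_left.1 h3
  have hout : (N1 E a).Nonempty := by
    have := hCE.2 a
    exact Finset.card_pos.1 (by omega)
  obtain ⟨b, hb⟩ := hout
  have hab : (a, b) ∈ E := mem_N1.1 hb
  have hbK : b ∈ K := hKcl (mem_NS.2 ⟨a, ha, mem_Nb.2 (Or.inr hab)⟩)
  have hbX : b ∈ X a := hsub a ha (X a) (hXs a) (hXcl a) hbK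
  have haY : a ∈ Y b := hsub b hbK (Y b) (hYs b) (hYcl b) ha
  have e : a = b := hmeet a b (Finset.mem_biUnion.2 ⟨b, hbX, hN b⟩)
    (Finset.mem_biUnion.2 ⟨a, haY, hN a⟩)
  rw [← e] at hab
  exact hCE.1 a a hab hab

end Vale.Agent.P038.H613
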