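import Mathlib

/-!
# P038 (H613): canonical matchings

`Adm N O K f`: `f` maps the sources `O` injectively to targets `f y ∈ N y`, outside `K`.
`mono_image`: the image of a cheapest such map is monotone in the market.
-/

namespace Vale.Agent.P038.H613

open Finset

variable {V : Type*} [Fintype V] [DecidableEq V]

/-- `f` matches `O` injectively into the neighbourhoods, avoiding `K`. -/
def Adm (N : V → Finset V) (O K : Finset V) (f : V → V) : Prop :=
  Set.InjOn f O ∧ ∀ y ∈ O, f y ∈ N y ∧ f y ∉ K

/-- A numbering of the vertices. -/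
noncomputable def num (v : V) : ℕ := (Fintype.equivFin V v : ℕ)

theorem num_inj {a b : V} (h : num a = num b) : a = b :=
  (Fintype.equivFin V).injective (Fin.ext h)

/-- The cost of the values of `f` on `O`. -/
noncomputable def cost (O : Finset V) (f : V → V) : ℕ := ∑ y ∈ O, 2 ^ num (f y)

theorem exists_opt {N : V → Finset V} {O K : Finset V} (h : ∃ f, Adm N O K f) :
    ∃ f, Adm N O K f ∧ ∀ g, Adm N O K g → cost O f ≤ cost O g := by
  classical
  obtain ⟨f0, h0⟩ := h
  obtain ⟨f, hf, hmin⟩ := Finset.exists_min_image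
    ((Finset.univ : Finset (V → V)).filter fun f => Adm N O K f) (cost O)
    ⟨f0, Finset.mem_filter.2 ⟨Finset.mem_univ _, h0⟩⟩
  exact ⟨f, (Finset.mem_filter.1 hf).2,
    fun g hg => hmin g (Finset.mem_filter.2 ⟨Finset.mem_univ _, hg⟩)⟩

theorem cost_split (O S : Finset V) (hS : S ⊆ O) (f : V → V) :
    cost O f = cost (O \ S) f + cost S f := by
  unfold cost
  rw [Finset.sum_sdiff hS]

theorem cost_congr {O : Finset V} {f g : V → V} (h : ∀ y ∈ O, f y = g y) :
    cost O f = cost O g := by
  unfold cost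
  exact Finset.sum_congr rfl fun y hy => by rw [h y hy]

theorem image_eq_of_cost_eq {S : Finset V} {f g : V → V} (hf : Set.InjOn f S)
    (hg : Set.InjOn g S) (h : cost S f = cost S g) :
    S.image (fun y => num (f y)) = S.image (fun y => num (g y)) := by
  have e : ∀ k : V → V, Set.InjOn k S → ∑ i ∈ S.image (fun y => num (k y)), 2 ^ i = cost S k := by
    intro k hk
    unfold cost
    rw [Finset.sum_image]
    intro a ha b hb hab
    exact hk ha hb (num_inj hab)
  apply Finset.geomSum_injective (le_refl 2)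
  show ∑ i ∈ S.image (fun y => num (f y)), 2 ^ i = ∑ i ∈ S.image (fun y => num (g y)), 2 ^ i
  rw [e f hf, e g hg, h]

theorem mono_image {N : V → Finset V} {O O' K K' : Finset V} {f f' : V → V}
    (hf : Adm N O K f) (hfo : ∀ g, Adm N O K g → cost O f ≤ cost O g)
    (hf' : Adm N O' K' f') (hfo' : ∀ g, Adm N O' K' g → cost O' f' ≤ cost O' g)
    (hK : K' ⊆ K) (hO : ∀ y ∈ O', ∀ x ∈ N y, x ∉ K → y ∈ O) {y1 : V} (hy1 : y1 ∈ O')
    (hx : f' y1 ∉ K) : ∃ y ∈ O, f y = f' y1 := by
  classical
  by_contra hcon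
  push Not at hcon
  set step : V → V → Prop := fun y y' => y' ∈ O' ∧ f' y' = f y with hstep
  set S : Finset V := Finset.univ.filter (fun y => Relation.ReflTransGen step y1 y) with hS
  have mS : ∀ y, y ∈ S ↔ Relation.ReflTransGen step y1 y := fun y => by
    rw [hS, Finset.mem_filter]
    exact ⟨fun h => h.2, fun h => ⟨Finset.mem_univ _, h⟩⟩
  have key : ∀ y, Relation.ReflTransGen step y1 y → y ∈ O' ∧ f' y ∉ K ∧ y ∈ O := by
    intro y hy
    induction hy with
    | refl => exact ⟨hy1, hx, hO y1 hy1 _ (hf'.2 y1 hy1).1 hx⟩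
    | tail _ hbc ih =>
      obtain ⟨h1, h2⟩ := hbc
      have h3 := (hf.2 _ ih.2.2).2
      rw [← h2] at h3
      exact ⟨h1, h3, hO _ h1 _ (hf'.2 _ h1).1 h3⟩
  have hSO' : S ⊆ O' := fun y hy => (key y ((mS y).1 hy)).1
  have hSO : S ⊆ O := fun y hy => (key y ((mS y).1 hy)).2.2
  have hSK : ∀ y ∈ S, f' y ∉ K := fun y hy => (key y ((mS y).1 hy)).2.1
  -- forward closure
  have hfwd : ∀ y ∈ S, ∀ z ∈ O', f' z = f y → z ∈ S := by
    intro y hy z hz h
    exact (mS z).2 (Relation.ReflTransGen.tail ((mS y).1 hy) ⟨hz, h⟩)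
  -- backward closure
  have hbwd : ∀ y ∈ S, ∀ z ∈ O, f z = f' y → z ∈ S := by
    intro y hy z hz h
    rcases Relation.ReflTransGen.cases_tail ((mS y).1 hy) with h1 | ⟨c, hc, hcy⟩
    · exfalso
      rw [h1] at h
      exact hcon z hz h
    · have hcS : c ∈ S := (mS c).2 hc
      have h2 : f z = f c := h.trans hcy.2
      have h3 := hf.1 hz (hSO hcS) h2
      rw [h3]
      exact hcS
  set h : V → V := fun y => if y ∈ S then f' y else f y with hh
  set h' : V → V := fun y => if y ∈ S then f y else f' y with hh'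
  have h_in : ∀ y ∈ S, h y = f' y := fun y hy => by rw [hh]; exact if_pos hy
  have h_out : ∀ y, y ∉ S → h y = f y := fun y hy => by rw [hh]; exact if_neg hy
  have h'_in : ∀ y ∈ S, h' y = f y := fun y hy => by rw [hh']; exact if_pos hy
  have h'_out : ∀ y, y ∉ S → h' y = f' y := fun y hy => by rw [hh']; exact if_neg hy
  have hadm : Adm N O K h := by
    refine ⟨?_, ?_⟩
    · intro a ha b hb hab
      by_cases haS : a ∈ S
      · by_cases hbS : b ∈ S
        · rw [h_in a haS, h_in b hbS] at hab
          exact hf'.1 (hSO' haS) (hSO' hbS) hab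
        · exfalso
          rw [h_in a haS, h_out b hbS] at hab
          exact hbS (hbwd a haS b hb hab.symm)
      · by_cases hbS : b ∈ S
        · exfalso
          rw [h_out a haS, h_in b hbS] at hab
          exact haS (hbwd b hbS a ha hab)
        · rw [h_out a haS, h_out b hbS] at hab
          exact hf.1 ha hb hab
    · intro y hy
      by_cases hyS : y ∈ S
      · rw [h_in y hyS]
        exact ⟨(hf'.2 y (hSO' hyS)).1, hSK y hyS⟩
      · rw [h_out y hyS]
        exact hf.2 y hy
  have hadm' : Adm N O' K' h' := by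
    refine ⟨?_, ?_⟩
    · intro a ha b hb hab
      by_cases haS : a ∈ S
      · by_cases hbS : b ∈ S
        · rw [h'_in a haS, h'_in b hbS] at hab
          exact hf.1 (hSO haS) (hSO hbS) hab
        · exfalso
          rw [h'_in a haS, h'_out b hbS] at hab
          exact hbS (hfwd a haS b hb hab.symm)
      · by_cases hbS : b ∈ S
        · exfalso
          rw [h'_out a haS, h'_in b hbS] at hab
          exact haS (hfwd b hbS a ha hab)
        · rw [h'_out a haS, h'_out b hbS] at hab
          exact hf'.1 ha hb hab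
    · intro y hy
      by_cases hyS : y ∈ S
      · rw [h'_in y hyS]
        exact ⟨(hf.2 y (hSO hyS)).1, fun h2 => (hf.2 y (hSO hyS)).2 (hK h2)⟩
      · rw [h'_out y hyS]
        exact hf'.2 y hy
  have c1 := hfo h hadm
  have c2 := hfo' h' hadm'
  rw [cost_split O S hSO f, cost_split O S hSO h,
    cost_congr (O := O \ S) (f := h) (g := f) (fun y hy => h_out y (Finset.mem_sdiff.1 hy).2),
    cost_congr (O := S) (f := h) (g := f') h_in] at c1
  rw [cost_split O' S hSO' f', cost_split O' S hSO' h',
    cost_congr (O := O' \ S) (f := h') (g := f') (fun y hy => h'_out y (Finset.mem_sdiff.1 hy).2),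
    cost_congr (O := S) (f := h') (g := f) h'_in] at c2
  have c3 : cost S f = cost S f' := by omega
  have c4 := image_eq_of_cost_eq (hf.1.mono (fun y hy => hSO hy))
    (hf'.1.mono (fun y hy => hSO' hy)) c3
  have hy1S : y1 ∈ S := (mS y1).2 Relation.ReflTransGen.refl
  have c5 : num (f' y1) ∈ S.image (fun y => num (f y)) := by
    rw [c4]
    exact Finset.mem_image_of_mem _ hy1S
  obtain ⟨y, hy, hyy⟩ := Finset.mem_image.1 c5
  exact hcon y (hSO hy) (num_inj hyy)

end Vale.Agent.P038.H613
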